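import Mathlib

/-!
# The Prekopa-Leindler inequality (midpoint form)
-/

namespace Vale.Agent.P074

open MeasureTheory Set
open scoped ENNReal

/-! ## One-dimensional Brunn-Minkowski inequality -/

theorem volume_affine_preimage (L : Set ℝ) (c : ℝ) :
    2 * volume {y : ℝ | 2 * y - c ∈ L} = volume L := by
  have h1 : {y : ℝ | 2 * y - c ∈ L} = (fun y => 2 * y) ⁻¹' ((fun y => y - c) ⁻¹' L) := rfl
  rw [h1, Real.volume_preimage_mul_left (by norm_num : (2 : ℝ) ≠ 0)]
  have h2 : volume ((fun y : ℝ => y - c) ⁻¹' L) = volume L := by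
    simp only [sub_eq_add_neg]
    exact measure_preimage_add_right _ _ _
  rw [h2, abs_of_pos (by norm_num : (0 : ℝ) < 2⁻¹), ← mul_assoc]
  have h3 : (2 : ℝ≥0∞) * ENNReal.ofReal 2⁻¹ = 1 := by
    rw [show (2 : ℝ≥0∞) = ENNReal.ofReal 2 by simp, ← ENNReal.ofReal_mul (by norm_num)]
    norm_num
  rw [h3, one_mul]

theorem brunn_minkowski_compact {K L C : Set ℝ} (hK : IsCompact K) (hL : IsCompact L)
    (hK0 : K.Nonempty) (hL0 : L.Nonempty) (hC : ∀ x ∈ K, ∀ y ∈ L, (x + y) / 2 ∈ C) :
    volume K + volume L ≤ 2 * volume C := by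
  obtain ⟨a, ha, haK⟩ := hK.exists_isGreatest hK0
  obtain ⟨b, hb, hbL⟩ := hL.exists_isLeast hL0
  set S1 : Set ℝ := {y | 2 * y - a ∈ L} with hS1
  set S2 : Set ℝ := {y | 2 * y - b ∈ K} with hS2
  have m1 : MeasurableSet S1 := by
    have : Measurable fun y : ℝ => 2 * y - a := by fun_prop
    exact this hL.measurableSet
  have m2 : MeasurableSet S2 := by
    have : Measurable fun y : ℝ => 2 * y - b := by fun_prop
    exact this hK.measurableSet
  have c1 : S1 ⊆ C := by
    intro y hy
    have := hC a ha (2 * y - a) hy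
    have e : (a + (2 * y - a)) / 2 = y := by ring
    rwa [e] at this
  have c2 : S2 ⊆ C := by
    intro y hy
    have := hC (2 * y - b) hy b hb
    have e : (2 * y - b + b) / 2 = y := by ring
    rwa [e] at this
  have hd : AEDisjoint volume S2 S1 := by
    unfold AEDisjoint
    have hsub : S2 ∩ S1 ⊆ {(a + b) / 2} := by
      rintro y ⟨hy2, hy1⟩
      have h1 : b ≤ 2 * y - a := hbL hy1
      have h2 : 2 * y - b ≤ a := haK hy2
      simp only [mem_singleton_iff]
      linarith
    exact measure_mono_null hsub (by simp)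
  calc volume K + volume L = 2 * volume S2 + 2 * volume S1 := by
        rw [hS1, hS2, volume_affine_preimage, volume_affine_preimage]
    _ = 2 * (volume S2 + volume S1) := by rw [mul_add]
    _ = 2 * volume (S2 ∪ S1) := by
        rw [measure_union₀ m1.nullMeasurableSet hd]
    _ ≤ 2 * volume C := by
        gcongr
        exact union_subset c2 c1

theorem brunn_minkowski_real {A B C : Set ℝ} (hA : MeasurableSet A) (hB : MeasurableSet B)
    (hA0 : A.Nonempty) (hB0 : B.Nonempty) (hC : ∀ x ∈ A, ∀ y ∈ B, (x + y) / 2 ∈ C) :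
    volume A + volume B ≤ 2 * volume C := by
  obtain ⟨a0, ha0⟩ := hA0
  obtain ⟨b0, hb0⟩ := hB0
  -- step one: `A` against compact subsets of `B`
  have step1 : ∀ L ⊆ B, IsCompact L → L.Nonempty → volume A + volume L ≤ 2 * volume C := by
    intro L hLB hL hL0
    have hLfin : volume L ≠ ∞ := hL.measure_lt_top.ne
    have hbase : volume L ≤ 2 * volume C := by
      have := brunn_minkowski_compact (isCompact_singleton (x := a0)) hL (by simp) hL0
        (C := C) (fun x hx y hy => hC x (by simp at hx; rw [hx]; exact ha0) y (hLB hy))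
      simpa using this
    have h1 : volume A ≤ 2 * volume C - volume L := by
      refine le_of_forall_lt_imp_le_of_dense fun r hr => ?_
      obtain ⟨K, hKA, hK, hrK⟩ := hA.exists_lt_isCompact hr
      have hK0 : K.Nonempty := by
        rcases K.eq_empty_or_nonempty with h | h
        · rw [h] at hrK; simp at hrK
        · exact h
      have h2 := brunn_minkowski_compact hK hL hK0 hL0
        (C := C) fun x hx y hy => hC x (hKA hx) y (hLB hy)
      exact hrK.le.trans (ENNReal.le_sub_of_add_le_right hLfin h2)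
    exact add_le_of_le_tsub_right_of_le hbase h1
  by_cases hAfin : volume A = ∞
  · have := step1 {b0} (by simpa using hb0) isCompact_singleton (by simp)
    rw [hAfin] at this
    simp only [Real.volume_singleton, add_zero, top_le_iff] at this
    rw [this]; exact le_top
  · have hbase : volume A ≤ 2 * volume C := by
      have := step1 {b0} (by simpa using hb0) isCompact_singleton (by simp)
      simpa using this
    have h1 : volume B ≤ 2 * volume C - volume A := by
      refine le_of_forall_lt_imp_le_of_dense fun r hr => ?_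
      obtain ⟨L, hLB, hL, hrL⟩ := hB.exists_lt_isCompact hr
      have hL0 : L.Nonempty := by
        rcases L.eq_empty_or_nonempty with h | h
        · rw [h] at hrL; simp at hrL
        · exact h
      have h2 := step1 L hLB hL hL0
      rw [add_comm] at h2
      exact hrL.le.trans (ENNReal.le_sub_of_add_le_right hAfin h2)
    rw [add_comm]
    exact add_le_of_le_tsub_right_of_le hbase h1

/-! ## One-dimensional Prekopa-Leindler -/

/-- Layer cake for functions bounded by one. -/
theorem lintegral_layer {f : ℝ → ℝ≥0∞} (hf : Measurable f) (h1 : ∀ x, f x ≤ 1) :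
    ∫⁻ x, f x = ∫⁻ t in Ioi (0 : ℝ), volume {x | ENNReal.ofReal t < f x} := by
  have e : ∀ x, f x = ENNReal.ofReal ((f x).toReal) := fun x =>
    (ENNReal.ofReal_toReal (ne_top_of_le_ne_top ENNReal.one_ne_top (h1 x))).symm
  have h2 := lintegral_eq_lintegral_meas_lt (volume : Measure ℝ) (f := fun x => (f x).toReal)
    (Filter.Eventually.of_forall fun x => ENNReal.toReal_nonneg) hf.ennreal_toReal.aemeasurable
  calc ∫⁻ x, f x = ∫⁻ x, ENNReal.ofReal ((f x).toReal) := by simp only [← e]
    _ = ∫⁻ t in Ioi (0 : ℝ), volume {x | t < (f x).toReal} := h2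
    _ = ∫⁻ t in Ioi (0 : ℝ), volume {x | ENNReal.ofReal t < f x} := by
        apply setLIntegral_congr_fun measurableSet_Ioi
        intro t ht
        beta_reduce
        congr 1
        ext x
        simp only [mem_ofPred_eq]
        rw [ENNReal.ofReal_lt_iff_lt_toReal (le_of_lt ht)
          (ne_top_of_le_ne_top ENNReal.one_ne_top (h1 x))]

theorem prekopa_one {f g h : ℝ → ℝ≥0∞} (hf : Measurable f) (hg : Measurable g)
    (hh : Measurable h) (sf : ⨆ x, f x = 1) (sg : ⨆ x, g x = 1)
    (H : ∀ x y, f x * g y ≤ h ((x + y) / 2) ^ 2) :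
    (∫⁻ x, f x) + ∫⁻ x, g x ≤ 2 * ∫⁻ x, h x := by
  have hf1 : ∀ x, f x ≤ 1 := fun x => sf ▸ le_iSup f x
  have hg1 : ∀ x, g x ≤ 1 := fun x => sg ▸ le_iSup g x
  set h' : ℝ → ℝ≥0∞ := fun x => min (h x) 1 with hh'
  have mh' : Measurable h' := hh.min measurable_const
  have H' : ∀ x y, f x * g y ≤ h' ((x + y) / 2) ^ 2 := by
    intro x y
    simp only [hh']
    rcases le_total (h ((x + y) / 2)) 1 with hle | hle
    · rw [min_eq_left hle]; exact H x y
    · rw [min_eq_right hle, one_pow]
      calc f x * g y ≤ 1 * 1 := mul_le_mul' (hf1 x) (hg1 y)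
        _ = 1 := one_mul 1
  have key : ∀ t : ℝ, 0 < t → volume {x | ENNReal.ofReal t < f x} +
      volume {x | ENNReal.ofReal t < g x} ≤ 2 * volume {x | ENNReal.ofReal t < h' x} := by
    intro t ht
    by_cases ht1 : ENNReal.ofReal t < 1
    · apply brunn_minkowski_real
      · exact measurableSet_lt measurable_const hf
      · exact measurableSet_lt measurable_const hg
      · rw [← sf] at ht1
        exact lt_iSup_iff.1 ht1
      · rw [← sg] at ht1
        exact lt_iSup_iff.1 ht1
      · intro x hx y hy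
        simp only [mem_ofPred_eq] at hx hy ⊢
        by_contra hcon
        have h1 : h' ((x + y) / 2) ^ 2 ≤ ENNReal.ofReal t ^ 2 := pow_le_pow_left' (not_lt.1 hcon) 2
        have h2 : ENNReal.ofReal t * ENNReal.ofReal t < f x * g y :=
          ENNReal.mul_lt_mul hx hy
        rw [← sq] at h2
        exact absurd (h2.trans_le ((H' x y).trans h1)) (lt_irrefl _)
    · have e1 : {x | ENNReal.ofReal t < f x} = ∅ := by
        ext x
        simp only [mem_ofPred_eq, mem_empty_iff_false, iff_false, not_lt]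
        exact (hf1 x).trans (not_lt.1 ht1)
      have e2 : {x | ENNReal.ofReal t < g x} = ∅ := by
        ext x
        simp only [mem_ofPred_eq, mem_empty_iff_false, iff_false, not_lt]
        exact (hg1 x).trans (not_lt.1 ht1)
      rw [e1, e2]
      simp
  calc (∫⁻ x, f x) + ∫⁻ x, g x
      = (∫⁻ t in Ioi (0 : ℝ), volume {x | ENNReal.ofReal t < f x}) +
        ∫⁻ t in Ioi (0 : ℝ), volume {x | ENNReal.ofReal t < g x} := by
        rw [lintegral_layer hf hf1, lintegral_layer hg hg1]
    _ ≤ ∫⁻ t in Ioi (0 : ℝ), (volume {x | ENNReal.ofReal t < f x} +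
        volume {x | ENNReal.ofReal t < g x}) := le_lintegral_add _ _
    _ ≤ ∫⁻ t in Ioi (0 : ℝ), 2 * volume {x | ENNReal.ofReal t < h' x} :=
        setLIntegral_mono' measurableSet_Ioi fun t ht => key t ht
    _ = 2 * ∫⁻ t in Ioi (0 : ℝ), volume {x | ENNReal.ofReal t < h' x} :=
        lintegral_const_mul' _ _ (by norm_num)
    _ = 2 * ∫⁻ x, h' x := by
        rw [lintegral_layer mh' fun x => min_le_right _ _]
    _ ≤ 2 * ∫⁻ x, h x := by
        gcongr with x
        exact min_le_left _ _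

theorem four_mul_le_sq (x y : ℝ≥0∞) : 4 * (x * y) ≤ (x + y) ^ 2 := by
  wlog hxy : x ≤ y generalizing x y
  · rw [mul_comm x y, add_comm x y]
    exact this y x (le_of_not_ge hxy)
  obtain ⟨z, rfl⟩ := exists_add_of_le hxy
  calc 4 * (x * (x + z)) ≤ 4 * (x * (x + z)) + z ^ 2 := le_self_add
    _ = (x + (x + z)) ^ 2 := by ring

/-- Prekopa-Leindler in dimension one, midpoint form, bounded `f` and `g`. -/
theorem prekopa_bdd {f g h : ℝ → ℝ≥0∞} (hf : Measurable f) (hg : Measurable g)
    (hh : Measurable h) (sf : ⨆ x, f x ≠ ∞) (sg : ⨆ x, g x ≠ ∞)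
    (H : ∀ x y, f x * g y ≤ h ((x + y) / 2) ^ 2) :
    (∫⁻ x, f x) * ∫⁻ x, g x ≤ (∫⁻ x, h x) ^ 2 := by
  set A := ⨆ x, f x with hA
  set B := ⨆ x, g x with hB
  by_cases hA0 : A = 0
  · have : ∀ x, f x = 0 := fun x => le_antisymm (hA0 ▸ le_iSup f x) zero_le
    simp [this]
  by_cases hB0 : B = 0
  · have : ∀ x, g x = 0 := fun x => le_antisymm (hB0 ▸ le_iSup g x) zero_le
    simp [this]
  -- square roots of the suprema
  set p : ℝ≥0∞ := (A * B) ^ (1 / 2 : ℝ) with hp
  have hAB0 : A * B ≠ 0 := mul_ne_zero hA0 hB0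
  have hABt : A * B ≠ ∞ := ENNReal.mul_ne_top sf sg
  have hp2 : p ^ 2 = A * B := by
    rw [hp, ← ENNReal.rpow_natCast, ← ENNReal.rpow_mul]
    norm_num
  have hp0 : p ≠ 0 := by
    intro h0
    rw [h0] at hp2
    exact hAB0 (by rw [← hp2]; simp)
  have hpt : p ≠ ∞ := by
    intro h0
    rw [h0] at hp2
    exact hABt (by rw [← hp2]; simp)
  have h1 := prekopa_one (f := fun x => A⁻¹ * f x) (g := fun x => B⁻¹ * g x)
    (h := fun x => p⁻¹ * h x) (hf.const_mul _) (hg.const_mul _) (hh.const_mul _)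
    (by rw [← ENNReal.mul_iSup, ← hA, ENNReal.inv_mul_cancel hA0 sf])
    (by rw [← ENNReal.mul_iSup, ← hB, ENNReal.inv_mul_cancel hB0 sg])
    (by
      intro x y
      have e1 : (p⁻¹ * h ((x + y) / 2)) ^ 2 = (A⁻¹ * B⁻¹) * h ((x + y) / 2) ^ 2 := by
        rw [mul_pow, ← ENNReal.inv_pow, hp2, ENNReal.mul_inv (Or.inl hA0) (Or.inl sf)]
      rw [e1]
      calc A⁻¹ * f x * (B⁻¹ * g y) = (A⁻¹ * B⁻¹) * (f x * g y) := by ring
        _ ≤ (A⁻¹ * B⁻¹) * h ((x + y) / 2) ^ 2 := by gcongr; exact H x y)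
  rw [lintegral_const_mul _ hf, lintegral_const_mul _ hg, lintegral_const_mul _ hh] at h1
  have h2 := (four_mul_le_sq (A⁻¹ * ∫⁻ x, f x) (B⁻¹ * ∫⁻ x, g x)).trans (pow_le_pow_left' h1 2)
  have h3 : (2 * (p⁻¹ * ∫⁻ x, h x)) ^ 2 = 4 * ((A * B)⁻¹ * (∫⁻ x, h x) ^ 2) := by
    rw [mul_pow, mul_pow, ← ENNReal.inv_pow, hp2]; norm_num
  have h4 : 4 * (A⁻¹ * (∫⁻ x, f x) * (B⁻¹ * ∫⁻ x, g x)) =
      4 * ((A * B)⁻¹ * ((∫⁻ x, f x) * ∫⁻ x, g x)) := by
    rw [ENNReal.mul_inv (Or.inl hA0) (Or.inl sf)]; ring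
  rw [h3, h4] at h2
  have h5 : (A * B)⁻¹ * ((∫⁻ x, f x) * ∫⁻ x, g x) ≤ (A * B)⁻¹ * (∫⁻ x, h x) ^ 2 :=
    (ENNReal.mul_le_mul_iff_right (by norm_num) (by norm_num)).1 h2
  exact (ENNReal.mul_le_mul_iff_right (ENNReal.inv_ne_zero.2 hABt)
    (ENNReal.inv_ne_top.2 hAB0)).1 h5

/-- Prekopa-Leindler in dimension one, midpoint form. -/
theorem prekopa_real {f g h : ℝ → ℝ≥0∞} (hf : Measurable f) (hg : Measurable g)
    (hh : Measurable h) (H : ∀ x y, f x * g y ≤ h ((x + y) / 2) ^ 2) :
    (∫⁻ x, f x) * ∫⁻ x, g x ≤ (∫⁻ x, h x) ^ 2 := by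
  have hn : ∀ n : ℕ, (∫⁻ x, min (f x) n) * ∫⁻ x, min (g x) n ≤ (∫⁻ x, h x) ^ 2 := by
    intro n
    apply prekopa_bdd (hf.min measurable_const) (hg.min measurable_const) hh
    · exact ne_top_of_le_ne_top (ENNReal.natCast_ne_top n) (iSup_le fun x => min_le_right _ _)
    · exact ne_top_of_le_ne_top (ENNReal.natCast_ne_top n) (iSup_le fun x => min_le_right _ _)
    · intro x y
      exact (mul_le_mul' (min_le_left _ _) (min_le_left _ _)).trans (H x y)
  have lim : ∀ u : ℝ → ℝ≥0∞, Measurable u →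
      Filter.Tendsto (fun n : ℕ => ∫⁻ x, min (u x) n) Filter.atTop (nhds (∫⁻ x, u x)) := by
    intro u hu
    apply lintegral_tendsto_of_tendsto_of_monotone
    · intro n; exact (hu.min measurable_const).aemeasurable
    · refine Filter.Eventually.of_forall fun x => ?_
      intro m n hmn
      exact min_le_min le_rfl (by exact_mod_cast hmn)
    · refine Filter.Eventually.of_forall fun x => ?_
      have h1 : Filter.Tendsto (fun n : ℕ => min (u x) (n : ℝ≥0∞)) Filter.atTop
          (nhds (min (u x) ∞)) := by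
        exact (continuous_const.min continuous_id).continuousAt.tendsto.comp
          ENNReal.tendsto_nat_nhds_top
      simpa using h1
  by_cases h0 : (∫⁻ x, f x) = 0
  · rw [h0, zero_mul]; exact zero_le
  by_cases h0' : (∫⁻ x, g x) = 0
  · rw [h0', mul_zero]; exact zero_le
  have hm := ENNReal.Tendsto.mul (lim f hf) (Or.inl h0) (lim g hg) (Or.inl h0')
  exact le_of_tendsto hm (Filter.Eventually.of_forall hn)

/-! ## Tensorization -/

theorem prekopa_pi (d : ℕ) : ∀ {f g h : (Fin d → ℝ) → ℝ≥0∞}, Measurable f → Measurable g →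
    Measurable h → (∀ x y, f x * g y ≤ h (fun i => (x i + y i) / 2) ^ 2) →
    (∫⁻ x, f x) * ∫⁻ x, g x ≤ (∫⁻ x, h x) ^ 2 := by
  induction d with
  | zero =>
    intro f g h hf hg hh H
    rw [Measure.volume_pi_eq_dirac (fun i : Fin 0 => i.elim0), lintegral_dirac' _ hf, lintegral_dirac' _ hg,
      lintegral_dirac' _ hh]
    have := H (fun i => i.elim0) (fun i => i.elim0)
    refine this.trans (le_of_eq ?_)
    congr 2
    funext i
    exact i.elim0
  | succ n ih =>
    intro f g h hf hg hh H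
    set e := MeasurableEquiv.piFinSuccAbove (fun _ : Fin (n + 1) => ℝ) 0 with he
    have hmp := volume_preserving_piFinSuccAbove (fun _ : Fin (n + 1) => ℝ) 0
    have hI : ∀ u : (Fin (n + 1) → ℝ) → ℝ≥0∞, Measurable u →
        ∫⁻ x, u x = ∫⁻ t : ℝ, ∫⁻ z : Fin n → ℝ, u (e.symm (t, z)) := by
      intro u hu
      have h1 : ∫⁻ x, u x = ∫⁻ w : ℝ × (Fin n → ℝ), u (e.symm w) := by
        rw [← (hmp.symm e).lintegral_comp hu]
      rw [h1]
      exact lintegral_prod _ (hu.comp e.symm.measurable).aemeasurable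
    have hmid : ∀ (s t : ℝ) (z w : Fin n → ℝ), (fun i => (e.symm (s, z) i + e.symm (t, w) i) / 2) =
        e.symm ((s + t) / 2, fun i => (z i + w i) / 2) := by
      intro s t z w
      have h1 : ∀ (r : ℝ) (v : Fin n → ℝ), e.symm (r, v) = Fin.cons r v := by
        intro r v
        rw [he]
        simp only [MeasurableEquiv.piFinSuccAbove_symm_apply]
        exact Fin.insertNth_zero' r v
      rw [h1, h1, h1]
      funext i
      refine Fin.cases ?_ (fun j => ?_) i
      · simp
      · simp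
    have hmeas : ∀ u : (Fin (n + 1) → ℝ) → ℝ≥0∞, Measurable u →
        Measurable fun t : ℝ => ∫⁻ z : Fin n → ℝ, u (e.symm (t, z)) := fun u hu =>
      (hu.comp e.symm.measurable).lintegral_prod_right'
    rw [hI f hf, hI g hg, hI h hh]
    apply prekopa_real (hmeas f hf) (hmeas g hg) (hmeas h hh)
    intro s t
    apply ih
    · exact hf.comp (e.symm.measurable.comp measurable_prodMk_left)
    · exact hg.comp (e.symm.measurable.comp measurable_prodMk_left)
    · exact hh.comp (e.symm.measurable.comp measurable_prodMk_left)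
    · intro z w
      have := H (e.symm (s, z)) (e.symm (t, w))
      rwa [hmid] at this

/-- The Prekopa-Leindler inequality with parameter one half on Euclidean space. -/
theorem prekopa_leindler_half_aux {d : ℕ} (f g h : EuclideanSpace ℝ (Fin d) → ℝ≥0∞)
    (hf : Measurable f) (hg : Measurable g) (hh : Measurable h)
    (H : ∀ x y, f x * g y ≤ (h ((1 / 2 : ℝ) • (x + y))) ^ 2) :
    (∫⁻ x, f x) * (∫⁻ x, g x) ≤ (∫⁻ x, h x) ^ 2 := by
  have hmp := PiLp.volume_preserving_toLp (Fin d)
  have hm : Measurable (@WithLp.toLp 2 (Fin d → ℝ)) := hmp.measurable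
  rw [← hmp.lintegral_comp hf, ← hmp.lintegral_comp hg, ← hmp.lintegral_comp hh]
  apply prekopa_pi d (hf.comp hm) (hg.comp hm) (hh.comp hm)
  intro x y
  have h1 := H (WithLp.toLp 2 x) (WithLp.toLp 2 y)
  have h2 : (1 / 2 : ℝ) • (WithLp.toLp 2 x + WithLp.toLp 2 y : EuclideanSpace ℝ (Fin d)) =
      WithLp.toLp 2 (fun i => (x i + y i) / 2) := by
    ext i
    simp
    ring
  rw [h2] at h1
  exact h1

end Vale.Agent.P074
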